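import Vale.Agent.P170.Bdl.B1

/-- For every `k ≥ 3`, random `k`-SAT has a limiting threshold. -/
theorem Vale.Agent.Results.P170.Threshold.result :
    ∀ k : ℕ, 3 ≤ k → ∃ α : ℝ, Vale.Agent.P170.IsLimitingThreshold k α :=
  fun k hk => Vale.Agent.P170.main k hk
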